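import Vale.Agent.P011.E6X.Defs
import Vale.Agent.P011.E6H.XDefs
import Vale.Agent.P011.E6H.Hyp

/-!
The real places of `k` below the embeddings of `E`.
-/

open NumberField

namespace Vale.Agent.P011.E6X

open Vale.Agent.P011.MPQ Vale.Agent.P011.D4 Vale.Agent.P011.E6 Vale.Agent.P011.E6H
open scoped ComplexConjugate

variable {k E : Type} [Field k] [Field E] [Algebra k E] {ρ σ : E ≃ₐ[k] E} {lam : Eˣ}
  {g : Fin 3 → Eˣ} {al s : E} {a b c : kˣ}

/-- The real place below an embedding which is compatible with the conjugation. -/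
theorem Hyp.exists_tau (H : Hyp ρ σ lam g al s a b c) {w : E →+* ℂ}
    (hw : ∀ x, w (σ x) = conj (w x)) :
    ∃ τ : k →+* ℝ, (∀ t : k, w (algebraMap k E t) = (τ t : ℂ)) ∧ τ a < 0 := by
  have hre : ∀ x : k, ((w (algebraMap k E x)).re : ℂ) = w (algebraMap k E x) := by
    intro x
    have h1 := hw (algebraMap k E x)
    rw [AlgEquiv.commutes] at h1
    exact Complex.conj_eq_iff_re.mp h1.symm
  let τ : k →+* ℝ :=
    { toFun := fun a => (w (algebraMap k E a)).re
      map_one' := by simp
      map_zero' := by simp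
      map_add' := fun a b => by simp
      map_mul' := fun a b => by
        rw [map_mul, map_mul, ← hre a, ← hre b, ← Complex.ofReal_mul, Complex.ofReal_re,
          Complex.ofReal_re, Complex.ofReal_re] }
  have hτ : ∀ x, (τ x : ℂ) = w (algebraMap k E x) := hre
  refine ⟨τ, fun t => (hτ t).symm, ?_⟩
  have hal : al ≠ 0 := by
    rintro rfl
    have e : algebraMap k E a = 0 := by rw [← H.al2]; ring
    exact a.ne_zero ((map_eq_zero _).mp e)
  have h1 : (w al).re = 0 := by
    have h1 := hw al
    rw [H.σal, map_neg] at h1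
    have h2 := congrArg Complex.re h1
    simp only [Complex.neg_re, Complex.conj_re] at h2
    linarith
  have h2 : w al = ((w al).im : ℂ) * Complex.I := by
    apply Complex.ext
    · simp [h1]
    · simp
  have h3 : (w al).im ≠ 0 := by
    intro h
    rw [h, Complex.ofReal_zero, zero_mul] at h2
    exact hal ((map_eq_zero w).mp h2)
  have h4 : (τ a : ℂ) = ((-((w al).im ^ 2) : ℝ) : ℂ) := by
    rw [hτ, ← H.al2, map_pow, h2]
    push_cast
    rw [mul_pow, Complex.I_sq]
    simp
  have h5 : τ a = -((w al).im ^ 2) := by exact_mod_cast h4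
  rw [h5]
  have : 0 < (w al).im ^ 2 := by positivity
  linarith

/-- At every embedding which is compatible with the conjugation, the parameters `b` and `c` have the
same sign. -/
theorem Hyp.sign_bc (H : Hyp ρ σ lam g al s a b c)
    (hbc : ∀ τ : k →+* ℝ, τ a < 0 → 0 < τ b * τ c) {w : E →+* ℂ}
    (hw : ∀ x, w (σ x) = conj (w x)) :
    ((w (algebraMap k E b)).re < 0 ∧ (w (algebraMap k E c)).re < 0) ∨
      (0 < (w (algebraMap k E b)).re ∧ 0 < (w (algebraMap k E c)).re) := by
  obtain ⟨τ, h1, h2⟩ := H.exists_tau hw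
  have h3 := hbc τ h2
  rw [h1, h1, Complex.ofReal_re, Complex.ofReal_re]
  rcases pos_and_pos_or_neg_and_neg_of_mul_pos h3 with h | h
  · exact Or.inr h
  · exact Or.inl h

/-- The hypotheses of the final statement imply those of the proofs. -/
theorem hyp_of [NeZero (2 : E)] (h : IsSextic ρ σ a) (hg : IsForm ρ σ lam g)
    (hdiv : Oct.Division a b c) : ∃ al s : E, Hyp ρ σ lam g al s a b c := by
  obtain ⟨al, h1, h2, h3⟩ := h.sq
  obtain ⟨s, s1, s2, s3, s4⟩ := hg.rel
  have hal : al ≠ 0 := by
    rintro rfl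
    have e : algebraMap k E a = 0 := by rw [← h1]; ring
    exact a.ne_zero ((map_eq_zero _).mp e)
  refine ⟨al, s, ⟨h.h6, ?_, h.ρ3, ?_, h.σ2, h.comm, h1, h2, h3, hg.ρlam, hg.hlam, hg.σg, s1, s2,
    s3, s4, hdiv⟩⟩
  · obtain ⟨x, hx⟩ := h.hρ
    rintro rfl
    exact hx rfl
  · rintro rfl
    have e : al = -al := h3
    have e2 : (2 : E) * al = 0 := by linear_combination e
    rcases mul_eq_zero.mp e2 with e3 | e3
    · exact two_ne_zero e3
    · exact hal e3

end Vale.Agent.P011.E6X
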