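import Vale.Agent.P011.E6X.H714.Nm
import Vale.Agent.P011.E6X.H714.Tau
import Vale.Agent.P011.E6X.XDefs

/-!
Comparison of the two notions of nearness.
-/

open NumberField

namespace Vale.Agent.P011.E6X

open Vale.Agent.P011.MPQ Vale.Agent.P011.D4 Vale.Agent.P011.E6 Vale.Agent.P011.E6O
open Vale.Agent.P011.E6H (nm Inert DefC DefG)
open Vale.Agent.P011.E6O.Sl (XX YY ZZ)
open H714

section norm

variable {k E : Type} [Field k] [Field E] [Algebra k E] {a b c : kˣ} {al : E} (w : E →+* ℂ)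

theorem nw_eq (y : AlbL E a b c) : nw w al y =
    ‖w y.d1‖ + ‖w y.d2‖ + ‖w y.d3‖ +
    (‖w (ca al y.x1.fst)‖ + ‖w (cb al y.x1.fst)‖ + ‖w (cg al y.x1.fst)‖ +
      ‖w (up E b : Eˣ)‖ * ‖w (cd al y.x1.fst)‖ +
      (‖w (ca al y.x1.snd)‖ + ‖w (up E c : Eˣ)‖ * ‖w (cb al y.x1.snd)‖ +
        ‖w (cg al y.x1.snd)‖ +
        ‖w (up E b : Eˣ)‖ * ‖w (up E c : Eˣ)‖ * ‖w (cd al y.x1.snd)‖)) +
    (‖w (ca al y.x2.fst)‖ + ‖w (cb al y.x2.fst)‖ + ‖w (cg al y.x2.fst)‖ +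
      ‖w (up E b : Eˣ)‖ * ‖w (cd al y.x2.fst)‖ +
      (‖w (ca al y.x2.snd)‖ + ‖w (up E c : Eˣ)‖ * ‖w (cb al y.x2.snd)‖ +
        ‖w (cg al y.x2.snd)‖ +
        ‖w (up E b : Eˣ)‖ * ‖w (up E c : Eˣ)‖ * ‖w (cd al y.x2.snd)‖)) +
    (‖w (ca al y.x3.fst)‖ + ‖w (cb al y.x3.fst)‖ + ‖w (cg al y.x3.fst)‖ +
      ‖w (up E b : Eˣ)‖ * ‖w (cd al y.x3.fst)‖ +
      (‖w (ca al y.x3.snd)‖ + ‖w (up E c : Eˣ)‖ * ‖w (cb al y.x3.snd)‖ +
        ‖w (cg al y.x3.snd)‖ +
        ‖w (up E b : Eˣ)‖ * ‖w (up E c : Eˣ)‖ * ‖w (cd al y.x3.snd)‖)) := by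
  simp only [nw, Fin.sum_univ_three, XX, YY, ZZ, LinearMap.coe_mk, AddHom.coe_mk,
    Matrix.of_apply, Matrix.cons_val_zero, Matrix.cons_val_one, Matrix.cons_val, map_mul, map_neg,
    norm_mul, norm_neg]
  ring

theorem oct_le {A B C D A' B' C' D' u v : ℝ} (hA : 0 ≤ A) (hB : 0 ≤ B) (hC : 0 ≤ C) (hD : 0 ≤ D)
    (hA' : 0 ≤ A') (hB' : 0 ≤ B') (hC' : 0 ≤ C') (hD' : 0 ≤ D') (hu : 0 ≤ u) (hv : 0 ≤ v) :
    A + B + C + u * D + (A' + v * B' + C' + u * v * D') ≤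
      ((1 + u) * (1 + v)) * ((A + B + C + D) + (A' + B' + C' + D')) := by
  have huv : 0 ≤ u * v := mul_nonneg hu hv
  have e : ((1 + u) * (1 + v)) * ((A + B + C + D) + (A' + B' + C' + D')) -
      (A + B + C + u * D + (A' + v * B' + C' + u * v * D')) =
      (u + v + u * v) * (A + B + C + A' + C') + (1 + v + u * v) * D +
        (1 + u + u * v) * B' + (1 + u + v) * D' := by ring
  have : 0 ≤ (u + v + u * v) * (A + B + C + A' + C') + (1 + v + u * v) * D +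
        (1 + u + u * v) * B' + (1 + u + v) * D' := by positivity
  linarith

theorem oct_ge {A B C D A' B' C' D' u v : ℝ} (hA : 0 ≤ A) (hB : 0 ≤ B) (hC : 0 ≤ C) (hD : 0 ≤ D)
    (hA' : 0 ≤ A') (hB' : 0 ≤ B') (hC' : 0 ≤ C') (hD' : 0 ≤ D') (hu : 0 < u) (hv : 0 < v) :
    (A + B + C + D) + (A' + B' + C' + D') ≤
      ((1 + u⁻¹) * (1 + v⁻¹)) * (A + B + C + u * D + (A' + v * B' + C' + u * v * D')) := by
  have h := oct_le (A := A) (B := B) (C := C) (D := u * D) (A' := A') (B' := v * B') (C' := C')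
    (D' := u * v * D') (u := u⁻¹) (v := v⁻¹) hA hB hC (by positivity) hA' (by positivity) hC'
    (by positivity) (by positivity) (by positivity)
  have e1 : u⁻¹ * (u * D) = D := by field_simp
  have e2 : v⁻¹ * (v * B') = B' := by field_simp
  have e3 : u⁻¹ * v⁻¹ * (u * v * D') = D' := by field_simp
  rw [e1, e2, e3] at h
  refine h.trans (le_of_eq ?_)
  ring

theorem nw_le_cnm (y : AlbL E a b c) : nw w al y ≤
    ((1 + ‖w (up E b : Eˣ)‖) * (1 + ‖w (up E c : Eˣ)‖)) * cnm al w y := by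
  have h := fun x : OctL E a b c => oct_le (norm_nonneg (w (ca al x.fst)))
    (norm_nonneg (w (cb al x.fst))) (norm_nonneg (w (cg al x.fst)))
    (norm_nonneg (w (cd al x.fst))) (norm_nonneg (w (ca al x.snd)))
    (norm_nonneg (w (cb al x.snd))) (norm_nonneg (w (cg al x.snd)))
    (norm_nonneg (w (cd al x.snd))) (norm_nonneg (w (up E b : Eˣ)))
    (norm_nonneg (w (up E c : Eˣ)))
  have h1 := h y.x1
  have h2 := h y.x2
  have h3 := h y.x3
  set K := (1 + ‖w (up E b : Eˣ)‖) * (1 + ‖w (up E c : Eˣ)‖) with hK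
  have hK1 : 1 ≤ K := by
    rw [hK]
    nlinarith [norm_nonneg (w (up E b : Eˣ)), norm_nonneg (w (up E c : Eˣ)),
      mul_nonneg (norm_nonneg (w (up E b : Eˣ))) (norm_nonneg (w (up E c : Eˣ)))]
  have d1 := le_mul_of_one_le_left (norm_nonneg (w y.d1)) hK1
  have d2 := le_mul_of_one_le_left (norm_nonneg (w y.d2)) hK1
  have d3 := le_mul_of_one_le_left (norm_nonneg (w y.d3)) hK1
  rw [nw_eq]
  unfold cnm qc
  linarith

theorem cnm_le_nw (y : AlbL E a b c) : cnm al w y ≤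
    ((1 + ‖w (up E b : Eˣ)‖⁻¹) * (1 + ‖w (up E c : Eˣ)‖⁻¹)) * nw w al y := by
  have hb : 0 < ‖w (up E b : Eˣ)‖ := norm_pos_iff.mpr ((map_ne_zero w).mpr (up E b).ne_zero)
  have hc : 0 < ‖w (up E c : Eˣ)‖ := norm_pos_iff.mpr ((map_ne_zero w).mpr (up E c).ne_zero)
  have h := fun x : OctL E a b c => oct_ge (norm_nonneg (w (ca al x.fst)))
    (norm_nonneg (w (cb al x.fst))) (norm_nonneg (w (cg al x.fst)))
    (norm_nonneg (w (cd al x.fst))) (norm_nonneg (w (ca al x.snd)))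
    (norm_nonneg (w (cb al x.snd))) (norm_nonneg (w (cg al x.snd)))
    (norm_nonneg (w (cd al x.snd))) hb hc
  have h1 := h y.x1
  have h2 := h y.x2
  have h3 := h y.x3
  set K := (1 + ‖w (up E b : Eˣ)‖⁻¹) * (1 + ‖w (up E c : Eˣ)‖⁻¹) with hK
  have hK1 : 1 ≤ K := by
    have hb' : 0 ≤ ‖w (up E b : Eˣ)‖⁻¹ := by positivity
    have hc' : 0 ≤ ‖w (up E c : Eˣ)‖⁻¹ := by positivity
    rw [hK]
    nlinarith [mul_nonneg hb' hc']
  have d1 := le_mul_of_one_le_left (norm_nonneg (w y.d1)) hK1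
  have d2 := le_mul_of_one_le_left (norm_nonneg (w y.d2)) hK1
  have d3 := le_mul_of_one_le_left (norm_nonneg (w y.d3)) hK1
  rw [nw_eq]
  unfold cnm qc
  linarith

/-- A map close to the identity in the first sense is close to the identity in the second. -/
theorem exists_near (hal : al ≠ 0) : ∃ C : ℝ, 0 < C ∧ ∀ (h : AlbL E a b c → AlbL E a b c) (ε : ℝ),
    0 ≤ ε → (∀ x, nm w (h x - x) ≤ ε * nm w x) → ∀ x, nw w al (h x - x) ≤ C * ε * nw w al x := by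
  set K := (1 + ‖w (up E b : Eˣ)‖) * (1 + ‖w (up E c : Eˣ)‖) with hK
  set L := (1 + ‖w (up E b : Eˣ)‖⁻¹) * (1 + ‖w (up E c : Eˣ)‖⁻¹) with hL
  set M := 4 * (1 + ‖w al‖) * (1 + ‖w al‖⁻¹) with hM
  have hK0 : 0 < K := by positivity
  have hL0 : 0 < L := by positivity
  have hM0 : 0 < M := by positivity
  refine ⟨K * M * L, by positivity, fun h ε hε hh x => ?_⟩
  have h1 := nw_le_cnm w (al := al) (h x - x)
  have h2 := cnm_near (al := al) w hal hε hh x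
  have h3 := cnm_le_nw w (al := al) x
  calc nw w al (h x - x) ≤ K * cnm al w (h x - x) := h1
    _ ≤ K * (M * ε * cnm al w x) := mul_le_mul_of_nonneg_left h2 hK0.le
    _ ≤ K * (M * ε * (L * nw w al x)) := by
        refine mul_le_mul_of_nonneg_left ?_ hK0.le
        exact mul_le_mul_of_nonneg_left h3 (by positivity)
    _ = K * M * L * ε * nw w al x := by ring

end norm

variable {k E : Type} [Field k] [NumberField k] [Field E] [NumberField E] [Algebra k E]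
  {ρ σ : E ≃ₐ[k] E} {lam : Eˣ} {g : Fin 3 → Eˣ} {al s : E} {a b c : kˣ}

omit [NumberField k] [NumberField E] in
theorem cp_iff {w : E →+* ℂ} : Cp g b c w ↔ DefC b c w ∧ DefG g w := by
  unfold Cp DefC DefG vk
  tauto

omit [NumberField k] [NumberField E] in
theorem sg_of (H : Hyp ρ σ lam g al s a b c) (hbc : ∀ τ : k →+* ℝ, τ a < 0 → 0 < τ b * τ c) :
    Sg σ b c := fun _ hw => H.sign_bc hbc hw

omit [NumberField k] in
/-- From the norms of the proofs to those of the final statement. -/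
theorem open_of (hal : al ≠ 0) {N : Subgroup (GO ρ σ lam g a b c)}
    (h : ∃ ε : ℝ, 0 < ε ∧ ∀ h : GO ρ σ lam g a b c, NearS σ g al ε h.1 → h ∈ N) :
    ∃ ε : ℝ, 0 < ε ∧ ∀ x : GO ρ σ lam g a b c,
      (∀ w, Inert σ w ∧ ¬ (DefC b c w ∧ DefG g w) → ∀ y, nm w (x.1 y - y) ≤ ε * nm w y) →
        x ∈ N := by
  obtain ⟨ε, h0, h1⟩ := h
  choose C hC hCn using fun w : E →+* ℂ => exists_near (a := a) (b := b) (c := c) w hal
  have hS : 0 ≤ ∑ w, C w := Finset.sum_nonneg fun w _ => (hC w).le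
  refine ⟨ε / (1 + ∑ w, C w), by positivity, fun x hx => h1 x fun w hw hc y => ?_⟩
  have h2 := hCn w x.1 (ε / (1 + ∑ w, C w)) (by positivity)
    (hx w ⟨hw, fun h => hc (cp_iff.mpr h)⟩) y
  refine h2.trans (mul_le_mul_of_nonneg_right ?_ ?_)
  · rw [mul_div_assoc', div_le_iff₀ (by positivity), mul_comm]
    refine mul_le_mul_of_nonneg_left ?_ h0.le
    have := Finset.single_le_sum (f := C) (fun w _ => (hC w).le) (Finset.mem_univ w)
    linarith
  · unfold nw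
    positivity

end Vale.Agent.P011.E6X
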