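import Vale.Agent.P011.E6X.H714.Cmp
import Vale.Agent.P011.E6X.H637.All
import Vale.Agent.P011.E6H.XBad

/-!
Every subgroup of finite index of the outer group is open at the real places at which the group is
not compact.
-/

open NumberField

namespace Vale.Agent.P011.E6X

open Vale.Agent.P011.MPQ Vale.Agent.P011.D4 Vale.Agent.P011.E6 Vale.Agent.P011.E6O
open Vale.Agent.P011.E6H (OpenAt Bad IsSextic IsForm)

variable {k E : Type} [Field k] [NumberField k] [Field E] [NumberField E] [Algebra k E]
  {ρ σ : E ≃ₐ[k] E} {lam : Eˣ} {g : Fin 3 → Eˣ} {a b c : kˣ}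

/-- Openness of the subgroups of finite index. -/
theorem e6x_open (h : IsSextic ρ σ a) (hC : Oct.Division a b c) (hg : IsForm ρ σ lam g) :
    OpenAt (Bad σ b c g) (E6H.GHer σ g a b c ⊓ E6H.GPh ρ lam a b c) := by
  obtain ⟨al, s, H⟩ := hyp_of h hg hC
  have hal : al ≠ 0 := by
    rintro rfl
    have e : algebraMap k E a = 0 := by rw [← H.al2]; ring
    exact a.ne_zero ((map_eq_zero _).mp e)
  exact E6H.openAt_bad fun N hN => open_of hal (open_of_near_all H N hN)

end Vale.Agent.P011.E6X
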