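import Vale.Agent.P011.E6H.XDefs
import Vale.Agent.P011.E6O.H493.Co

/-!
Comparison of the two systems of coordinates.
-/

namespace Vale.Agent.P011.E6X.H714

open Vale.Agent.P011.MPQ Vale.Agent.P011.D4 Vale.Agent.P011.E6 Vale.Agent.P011.E6H
open Vale.Agent.P011.E6O

variable {F : Type} [Field F] {a b c : Fˣ} {al : F} (w : F →+* ℂ)

theorem norm_pair (x y : F) : ‖w (x + al * y)‖ ≤ (1 + ‖w al‖) * (‖w x‖ + ‖w y‖) := by
  rw [map_add, map_mul]
  have h1 := norm_add_le (w x) (w al * w y)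
  rw [norm_mul] at h1
  nlinarith [norm_nonneg (w x), norm_nonneg (w y), norm_nonneg (w al),
    mul_nonneg (norm_nonneg (w al)) (norm_nonneg (w x))]

theorem norm_pair' (x y : F) : ‖w (x - al * y)‖ ≤ (1 + ‖w al‖) * (‖w x‖ + ‖w y‖) := by
  rw [map_sub, map_mul]
  have h1 := norm_sub_le (w x) (w al * w y)
  rw [norm_mul] at h1
  nlinarith [norm_nonneg (w x), norm_nonneg (w y), norm_nonneg (w al),
    mul_nonneg (norm_nonneg (w al)) (norm_nonneg (w x))]

/-- Each coordinate is bounded. -/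
theorem norm_ca_le (q : Qt a b) : ‖w (ca al q)‖ ≤ (1 + ‖w al‖) * qnm w q := by
  refine (norm_pair w q.re q.imI).trans (mul_le_mul_of_nonneg_left ?_ (by positivity))
  unfold qnm
  nlinarith [norm_nonneg (w q.imJ), norm_nonneg (w q.imK)]

theorem norm_cb_le (q : Qt a b) : ‖w (cb al q)‖ ≤ (1 + ‖w al‖) * qnm w q := by
  refine (norm_pair' w q.re q.imI).trans (mul_le_mul_of_nonneg_left ?_ (by positivity))
  unfold qnm
  nlinarith [norm_nonneg (w q.imJ), norm_nonneg (w q.imK)]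

theorem norm_cg_le (q : Qt a b) : ‖w (cg al q)‖ ≤ (1 + ‖w al‖) * qnm w q := by
  refine (norm_pair w q.imJ q.imK).trans (mul_le_mul_of_nonneg_left ?_ (by positivity))
  unfold qnm
  nlinarith [norm_nonneg (w q.re), norm_nonneg (w q.imI)]

theorem norm_cd_le (q : Qt a b) : ‖w (cd al q)‖ ≤ (1 + ‖w al‖) * qnm w q := by
  refine (norm_pair' w q.imJ q.imK).trans (mul_le_mul_of_nonneg_left ?_ (by positivity))
  unfold qnm
  nlinarith [norm_nonneg (w q.re), norm_nonneg (w q.imI)]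

/-- The sum of the absolute values of the coordinates with respect to `e`, `e'`, `e j`, `e' j`. -/
noncomputable def qc (al : F) (w : F →+* ℂ) (q : Qt a b) : ℝ :=
  ‖w (ca al q)‖ + ‖w (cb al q)‖ + ‖w (cg al q)‖ + ‖w (cd al q)‖

theorem qc_nonneg (q : Qt a b) : 0 ≤ qc al w q := by
  unfold qc
  positivity

theorem qc_le (q : Qt a b) : qc al w q ≤ 4 * (1 + ‖w al‖) * qnm w q := by
  have h1 := norm_ca_le (al := al) w q
  have h2 := norm_cb_le (al := al) w q
  have h3 := norm_cg_le (al := al) w q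
  have h4 := norm_cd_le (al := al) w q
  unfold qc
  linarith

theorem norm_half (hal : al ≠ 0) (x y : F) :
    ‖w x‖ + ‖w y‖ ≤ (1 + ‖w al‖⁻¹) * (‖w (x + al * y)‖ + ‖w (x - al * y)‖) := by
  have hw : w al ≠ 0 := (map_ne_zero w).mpr hal
  have hn : 0 < ‖w al‖ := norm_pos_iff.mpr hw
  have e1 : (2 : ℂ) * w x = w (x + al * y) + w (x - al * y) := by
    simp only [map_add, map_sub, map_mul]; ring
  have e2 : (2 : ℂ) * (w al * w y) = w (x + al * y) - w (x - al * y) := by
    simp only [map_add, map_sub, map_mul]; ring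
  have h1 : 2 * ‖w x‖ ≤ ‖w (x + al * y)‖ + ‖w (x - al * y)‖ := by
    have h := norm_add_le (w (x + al * y)) (w (x - al * y))
    rw [← e1, norm_mul] at h
    simpa using h
  have h2 : 2 * (‖w al‖ * ‖w y‖) ≤ ‖w (x + al * y)‖ + ‖w (x - al * y)‖ := by
    have h := norm_sub_le (w (x + al * y)) (w (x - al * y))
    rw [← e2, norm_mul, norm_mul] at h
    simpa using h
  set S := ‖w (x + al * y)‖ + ‖w (x - al * y)‖ with hS
  have hS0 : 0 ≤ S := by positivity
  have h3 : ‖w y‖ ≤ ‖w al‖⁻¹ * S := by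
    rw [inv_mul_eq_div, le_div_iff₀ hn]
    nlinarith [mul_nonneg hn.le (norm_nonneg (w y))]
  have h4 : ‖w x‖ ≤ S := by linarith [norm_nonneg (w x)]
  calc ‖w x‖ + ‖w y‖ ≤ S + ‖w al‖⁻¹ * S := add_le_add h4 h3
    _ = (1 + ‖w al‖⁻¹) * S := by ring

theorem qnm_le (hal : al ≠ 0) (q : Qt a b) : qnm w q ≤ (1 + ‖w al‖⁻¹) * qc al w q := by
  have h1 := norm_half w hal q.re q.imI
  have h2 := norm_half w hal q.imJ q.imK
  unfold qnm qc ca cb cg cd
  nlinarith

/-- The sum of the absolute values of the new coordinates. -/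
noncomputable def cnm (al : F) (w : F →+* ℂ) (x : Alb a b c) : ℝ :=
  ‖w x.d1‖ + ‖w x.d2‖ + ‖w x.d3‖ + (qc al w x.x1.fst + qc al w x.x1.snd) +
    (qc al w x.x2.fst + qc al w x.x2.snd) + (qc al w x.x3.fst + qc al w x.x3.snd)

theorem cnm_nonneg (x : Alb a b c) : 0 ≤ cnm al w x := by
  have h1 := qc_nonneg (al := al) w x.x1.fst
  have h2 := qc_nonneg (al := al) w x.x1.snd
  have h3 := qc_nonneg (al := al) w x.x2.fst
  have h4 := qc_nonneg (al := al) w x.x2.snd
  have h5 := qc_nonneg (al := al) w x.x3.fst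
  have h6 := qc_nonneg (al := al) w x.x3.snd
  unfold cnm
  positivity

theorem cnm_le (x : Alb a b c) : cnm al w x ≤ 4 * (1 + ‖w al‖) * nm w x := by
  have h1 := qc_le (al := al) w x.x1.fst
  have h2 := qc_le (al := al) w x.x1.snd
  have h3 := qc_le (al := al) w x.x2.fst
  have h4 := qc_le (al := al) w x.x2.snd
  have h5 := qc_le (al := al) w x.x3.fst
  have h6 := qc_le (al := al) w x.x3.snd
  have hC : 1 ≤ 4 * (1 + ‖w al‖) := by linarith [norm_nonneg (w al)]
  have d1 := le_mul_of_one_le_left (norm_nonneg (w x.d1)) hC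
  have d2 := le_mul_of_one_le_left (norm_nonneg (w x.d2)) hC
  have d3 := le_mul_of_one_le_left (norm_nonneg (w x.d3)) hC
  unfold cnm nm
  nlinarith

theorem nm_le (hal : al ≠ 0) (x : Alb a b c) : nm w x ≤ (1 + ‖w al‖⁻¹) * cnm al w x := by
  have h1 := qnm_le w hal x.x1.fst
  have h2 := qnm_le w hal x.x1.snd
  have h3 := qnm_le w hal x.x2.fst
  have h4 := qnm_le w hal x.x2.snd
  have h5 := qnm_le w hal x.x3.fst
  have h6 := qnm_le w hal x.x3.snd
  have hC : 1 ≤ 1 + ‖w al‖⁻¹ := by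
    have : 0 ≤ ‖w al‖⁻¹ := by positivity
    linarith
  have d1 := le_mul_of_one_le_left (norm_nonneg (w x.d1)) hC
  have d2 := le_mul_of_one_le_left (norm_nonneg (w x.d2)) hC
  have d3 := le_mul_of_one_le_left (norm_nonneg (w x.d3)) hC
  unfold cnm nm
  nlinarith

/-- A map close to the identity in the first sense is close to the identity in the second. -/
theorem cnm_near (hal : al ≠ 0) {h : Alb a b c → Alb a b c} {ε : ℝ} (hε : 0 ≤ ε)
    (hh : ∀ x, nm w (h x - x) ≤ ε * nm w x) (x : Alb a b c) :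
    cnm al w (h x - x) ≤ 4 * (1 + ‖w al‖) * (1 + ‖w al‖⁻¹) * ε * cnm al w x := by
  have h1 := cnm_le (al := al) w (h x - x)
  have h2 := hh x
  have h3 := nm_le w hal x
  have hC : 0 ≤ 4 * (1 + ‖w al‖) := by positivity
  calc cnm al w (h x - x) ≤ 4 * (1 + ‖w al‖) * nm w (h x - x) := h1
    _ ≤ 4 * (1 + ‖w al‖) * (ε * ((1 + ‖w al‖⁻¹) * cnm al w x)) :=
        mul_le_mul_of_nonneg_left (h2.trans (mul_le_mul_of_nonneg_left h3 hε)) hC
    _ = _ := by ring

end Vale.Agent.P011.E6X.H714
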